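import Vale.Agent.P153.R2.RDEC.Dom

/-!
# P153-R2, KPOS, block K4: closeness of the free laws

`V ⊆ W` finite, `B ⊆ V`, `A` an event which depends only on the heights in `B`: the probabilities
of `A` under the free laws (level `0`) of `V` and `W` differ by at most the probability under the
free law of `W` that the open cluster of `B` leaves `V` (`tv`). The open cluster of `B` is explored
from the inside; given that its boundary edges are closed, the law inside does not depend on the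
domain, and closed edges are more likely in the smaller domain.
-/

namespace Vale.Agent.P153.R2.KPOS.TV

open Set Relation
open Vale.Agent.P153 Vale.Agent.P153.R2 Vale.Agent.P153.R2.RD
open scoped Classical

variable {V W B k : Set Pt}

/-- All the edges between `k` and its complement are closed. -/
def Bc (k : Set Pt) : Set Hg := {h | ∀ x ∈ k, ∀ y, y ∉ k → Adj x y → |h x| = 1 ∧ |h y| = 1}

/-- `h` on `k`, `g` off `k`. -/
noncomputable def gl (k : Set Pt) (h g : Hg) : Hg := fun x => if x ∈ k then h x else g x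

theorem gl_in {h g : Hg} {x : Pt} (hx : x ∈ k) : gl k h g x = h x := by simp [gl, hx]

theorem gl_out {h g : Hg} {x : Pt} (hx : x ∉ k) : gl k h g x = g x := by simp [gl, hx]

theorem gl_gl (h g : Hg) : gl k (gl k h g) (gl k g h) = h := by
  funext x
  by_cases hx : x ∈ k
  · rw [gl_in hx, gl_in hx]
  · rw [gl_out hx, gl_out hx]

theorem gl_bc {h g : Hg} (hh : h ∈ Bc k) (hg : g ∈ Bc k) : gl k h g ∈ Bc k := by
  intro x hx y hy hxy
  rw [gl_in hx, gl_out hy]
  exact ⟨(hh x hx y hy hxy).1, (hg x hx y hy hxy).2⟩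

theorem gl_mem (hkV : k ⊆ V) (hkW : k ⊆ W) {h g : Hg} (hh : h ∈ Cfg V (frd V 0))
    (hhb : h ∈ Bc k) (hg : g ∈ Cfg W (frd W 0)) (hgb : g ∈ Bc k) :
    gl k h g ∈ Cfg W (frd W 0) := by
  refine ⟨fun x => ?_, fun x => ?_, fun x hx y hxy => ?_⟩
  · by_cases hx : x ∈ k
    · rw [gl_in hx]; exact hh.1 x
    · rw [gl_out hx]; exact hg.1 x
  · by_cases hx : x ∈ k
    · rw [gl_in hx, frd_in (hkW hx)]; exact Set.mem_univ _
    · rw [gl_out hx]; exact hg.2.1 x
  · have e : ∀ a b : ℤ, |a| = 1 → |b| = 1 → |a - b| ≤ 2 := fun a b ha hb => by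
      rcases abs_eq (by norm_num : (0 : ℤ) ≤ 1) |>.1 ha with h1 | h1 <;>
      rcases abs_eq (by norm_num : (0 : ℤ) ≤ 1) |>.1 hb with h2 | h2 <;> rw [h1, h2] <;> norm_num
    by_cases h1 : x ∈ k <;> by_cases h2 : y ∈ k
    · rw [gl_in h1, gl_in h2]; exact hh.2.2 x (hkV h1) y hxy
    · rw [gl_in h1, gl_out h2]
      exact e _ _ (hhb x h1 y h2 hxy).1 (hgb x h1 y h2 hxy).2
    · rw [gl_out h1, gl_in h2]
      have hyx := Topo.adj_symm hxy
      exact e _ _ (hgb y h2 x h1 hyx).2 (hhb y h2 x h1 hyx).1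
    · rw [gl_out h1, gl_out h2]; exact hg.2.2 x hx y hxy

/-- The boundary edges of the cluster are closed. -/
theorem clu_bc {h : Hg} (hk : CluL 0 B h = k) : h ∈ Bc k := by
  intro x hx y hy hxy
  by_contra hc
  rw [← hk] at hx hy
  obtain ⟨z, hz, hzx⟩ := hx
  exact hy ⟨z, hz, hzx.tail ⟨hxy, by simpa using hc⟩⟩

theorem gl_clu {h g : Hg} (hk : CluL 0 B h = k) (hg : g ∈ Bc k) : CluL 0 B (gl k h g) = k := by
  have hBk : B ⊆ k := fun x hx => by rw [← hk]; exact ⟨x, hx, ReflTransGen.refl⟩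
  apply Set.Subset.antisymm
  · rintro y ⟨x, hx, hxy⟩
    induction hxy with
    | refl => exact hBk hx
    | @tail a b hab h1 ih =>
      by_contra hb
      refine h1.2 ?_
      have := gl_bc (clu_bc hk) hg a ih b hb h1.1
      simpa using this
  · intro y hy
    have hy' := hy
    rw [← hk] at hy'
    obtain ⟨x, hx, hxy⟩ := hy'
    refine ⟨x, hx, ?_⟩
    have key : ∀ z, ReflTransGen (OpL 0 h) x z →
        ReflTransGen (OpL 0 (gl k h g)) x z := by
      intro z hz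
      induction hz with
      | refl => exact ReflTransGen.refl
      | @tail a b hab h1 ih =>
        refine ih.tail ⟨h1.1, ?_⟩
        have ha : a ∈ k := by rw [← hk]; exact ⟨x, hx, hab⟩
        have hb : b ∈ k := by rw [← hk]; exact ⟨x, hx, hab.tail h1⟩
        rw [gl_in ha, gl_in hb]
        exact h1.2
    exact key y hxy

/-- Exchange of the configurations on `k`. -/
theorem cross_le (hV : V.Finite) (hW : W.Finite) (hkV : k ⊆ V) (hkW : k ⊆ W) {A : Set Hg}
    (hA : ∀ h g : Hg, (∀ x ∈ B, h x = g x) → h ∈ A → g ∈ A) :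
    (Cfg V (frd V 0) ∩ (A ∩ {h | CluL 0 B h = k})).ncard * (Cfg W (frd W 0) ∩ Bc k).ncard ≤
      (Cfg W (frd W 0) ∩ (A ∩ {h | CluL 0 B h = k})).ncard * (Cfg V (frd V 0) ∩ Bc k).ncard := by
  rw [← Set.ncard_prod, ← Set.ncard_prod]
  refine Set.ncard_le_ncard_of_injOn (fun p : Hg × Hg => (gl k p.1 p.2, gl k p.2 p.1)) ?_ ?_ ?_
  · rintro ⟨h, g⟩ ⟨⟨h1, h2, h3⟩, h4, h5⟩
    have hb : h ∈ Bc k := clu_bc h3
    have hBk : B ⊆ k := fun x hx => by rw [← h3]; exact ⟨x, hx, ReflTransGen.refl⟩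
    refine ⟨⟨gl_mem hkV hkW h1 hb h4 h5, ?_, gl_clu h3 h5⟩, gl_mem hkW hkV h4 h5 h1 hb,
      gl_bc h5 hb⟩
    exact hA h _ (fun x hx => (gl_in (hBk hx)).symm) h2
  · rintro ⟨h, g⟩ _ ⟨h', g'⟩ _ he
    rw [Prod.mk.injEq] at he
    simp only at he
    have e1 : h = h' := by
      rw [← gl_gl (k := k) h g, ← gl_gl (k := k) h' g', he.1, he.2]
    have e2 : g = g' := by
      rw [← gl_gl (k := k) g h, ← gl_gl (k := k) g' h', he.1, he.2]
    rw [e1, e2]
  · exact ((Cfg_finite (frd_dat hW)).inter_of_left _).prod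
      ((Cfg_finite (frd_dat hV)).inter_of_left _)

theorem one_bc (k : Set Pt) : (fun _ => 1 : Hg) ∈ Cfg V (frd V 0) ∩ Bc k := by
  refine ⟨⟨fun _ => odd_one, fun x => ?_, fun x _ y _ => by simp⟩, fun x _ y _ _ => by simp⟩
  by_cases h : x ∈ V
  · rw [frd_in h]; exact Set.mem_univ _
  · by_cases h2 : x ∈ ebd V
    · rw [frd_bd h2]; simp
    · rw [frd_far h h2]; simp

/-- Closed edges are more likely in the smaller domain. -/
theorem bc_mono (hW : W.Finite) (hVW : V ⊆ W) (k : Set Pt) :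
    Pr (Cfg W (frd W 0)) (Bc k) ≤ Pr (Cfg V (frd V 0)) (Bc k) := by
  have hV : V.Finite := hW.subset hVW
  set U : Set Hg := {a | ∀ x ∈ k, ∀ y, y ∉ k → Adj x y → a x ≤ 1 ∧ a y ≤ 1}ᶜ with hU
  have hup : IsUpperSet U := by
    intro a b hab ha hb
    exact ha fun x hx y hy hxy => ⟨(hab x).trans (hb x hx y hy hxy).1,
      (hab y).trans (hb x hx y hy hxy).2⟩
  have key := mono_dom hW hVW hup
  have e : ∀ V : Set Pt, V.Finite → Pr (Cfg V (frd V 0)) {g | md 0 g ∈ U} =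
      1 - Pr (Cfg V (frd V 0)) (Bc k) := by
    intro V hV
    have h1 := Pr_add_compl (Cfg_finite (frd_dat hV)) (frd_nonempty V) (Bc k)
    have h2 : Pr (Cfg V (frd V 0)) {g | md 0 g ∈ U} = Pr (Cfg V (frd V 0)) (Bc k)ᶜ := by
      refine Pr_congr fun g hg => ?_
      have habs : ∀ x, |g x - 0| ≤ 1 ↔ |g x| = 1 := fun x => by
        rw [sub_zero]
        have h3 : g x ≠ 0 := fun h0 => by
          have := hg.1 x
          rw [h0] at this
          exact absurd this (by decide)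
        have := abs_pos.2 h3
        omega
      show ¬ _ ↔ ¬ _
      refine not_congr ?_
      constructor
      · intro h x hx y hy hxy
        have := h x hx y hy hxy
        unfold md at this
        rw [habs, habs] at this
        exact this
      · intro h x hx y hy hxy
        show |g x - 0| ≤ 1 ∧ |g y - 0| ≤ 1
        rw [habs, habs]
        exact h x hx y hy hxy
    rw [h2]; linarith
  rw [e V hV, e W hW] at key
  linarith

theorem one_le (hW : W.Finite) (hVW : V ⊆ W) (hkV : k ⊆ V) {A : Set Hg}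
    (hA : ∀ h g : Hg, (∀ x ∈ B, h x = g x) → h ∈ A → g ∈ A) :
    Pr (Cfg W (frd W 0)) (A ∩ {h | CluL 0 B h = k}) ≤
      Pr (Cfg V (frd V 0)) (A ∩ {h | CluL 0 B h = k}) := by
  have hV : V.Finite := hW.subset hVW
  have h1 := cross_le (A := A) hW hV (hkV.trans hVW) hkV hA
  have hb := bc_mono hW hVW k
  have fV := Cfg_finite (frd_dat hV)
  have fW := Cfg_finite (frd_dat hW)
  have pV : (0 : ℝ) < (Cfg V (frd V 0)).ncard := by
    exact_mod_cast (Set.ncard_pos fV).2 (frd_nonempty V)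
  have pW : (0 : ℝ) < (Cfg W (frd W 0)).ncard := by
    exact_mod_cast (Set.ncard_pos fW).2 (frd_nonempty W)
  have pb : (0 : ℝ) < (Cfg W (frd W 0) ∩ Bc k).ncard := by
    exact_mod_cast (Set.ncard_pos (fW.inter_of_left _)).2 ⟨_, one_bc k⟩
  have pb' : (0 : ℝ) < (Cfg V (frd V 0) ∩ Bc k).ncard := by
    exact_mod_cast (Set.ncard_pos (fV.inter_of_left _)).2 ⟨_, one_bc k⟩
  have h1' : ((Cfg W (frd W 0) ∩ (A ∩ {h | CluL 0 B h = k})).ncard : ℝ) *
      (Cfg V (frd V 0) ∩ Bc k).ncard ≤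
      (Cfg V (frd V 0) ∩ (A ∩ {h | CluL 0 B h = k})).ncard *
      (Cfg W (frd W 0) ∩ Bc k).ncard := by exact_mod_cast h1
  unfold Pr at hb ⊢
  set a := ((Cfg W (frd W 0) ∩ (A ∩ {h | CluL 0 B h = k})).ncard : ℝ)
  set b := ((Cfg V (frd V 0) ∩ (A ∩ {h | CluL 0 B h = k})).ncard : ℝ)
  set s := ((Cfg W (frd W 0) ∩ Bc k).ncard : ℝ)
  set t := ((Cfg V (frd V 0) ∩ Bc k).ncard : ℝ)
  set m := ((Cfg V (frd V 0)).ncard : ℝ)
  set n := ((Cfg W (frd W 0)).ncard : ℝ)
  have ha : 0 ≤ a := by positivity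
  have hbn : 0 ≤ b := by positivity
  rw [div_le_div_iff₀ pW pV] at hb ⊢
  -- a t ≤ b s, s m ≤ t n  ⟹ a m ≤ b n
  have h2 : a * m * t ≤ b * n * t := by
    calc a * m * t = (a * t) * m := by ring
      _ ≤ (b * s) * m := by gcongr
      _ = b * (s * m) := by ring
      _ ≤ b * (t * n) := by gcongr
      _ = b * n * t := by ring
  exact le_of_mul_le_mul_right h2 pb'

theorem sum_clu (hV : V.Finite) (S : Set Hg) (hS : S.Finite) (A : Set Hg) :
    Pr S (A ∩ {h | CluL 0 B h ⊆ V}) =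
      ∑ k ∈ hV.toFinset.powerset, Pr S (A ∩ {h | CluL 0 B h = (k : Set Pt)}) := by
  have e : ∀ k : Finset Pt, Pr S (A ∩ {h | CluL 0 B h = (k : Set Pt)}) =
      Ex S (ind (A ∩ {h | CluL 0 B h = (k : Set Pt)})) := fun k => Pr_eq_Ex hS _
  rw [Pr_eq_Ex hS, Finset.sum_congr rfl fun k _ => e k, ← Ex_sum]
  refine Ex_congr fun h _ => ?_
  by_cases h1 : h ∈ A ∩ {h | CluL 0 B h ⊆ V}
  · have hf : (CluL 0 B h).Finite := hV.subset h1.2
    have hm : hf.toFinset ∈ hV.toFinset.powerset := by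
      rw [Finset.mem_powerset]
      intro x hx
      rw [Set.Finite.mem_toFinset] at hx ⊢
      exact h1.2 hx
    rw [Finset.sum_eq_single_of_mem hf.toFinset hm]
    · have h2 : h ∈ A ∩ {g | CluL 0 B g = (hf.toFinset : Set Pt)} :=
        ⟨h1.1, (hf.coe_toFinset).symm⟩
      simp only [ind, h1, h2, if_true]
    · intro k _ hk
      have h2 : h ∉ A ∩ {g | CluL 0 B g = (k : Set Pt)} := fun h3 => hk (by
        apply Finset.coe_injective
        rw [hf.coe_toFinset]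
        exact h3.2.symm)
      simp only [ind, h2, if_false]
  · have h3 : ∀ k ∈ hV.toFinset.powerset,
        ind (A ∩ {g | CluL 0 B g = (k : Set Pt)}) h = 0 := by
      intro k hk
      have h2 : h ∉ A ∩ {g | CluL 0 B g = (k : Set Pt)} := by
        rintro ⟨h4, h5⟩
        refine h1 ⟨h4, ?_⟩
        show CluL 0 B h ⊆ V
        rw [h5]
        intro x hx
        have := Finset.mem_powerset.1 hk (Finset.mem_coe.1 hx)
        rwa [Set.Finite.mem_toFinset] at this
      simp only [ind, h2, if_false]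
    rw [Finset.sum_eq_zero h3]
    simp only [ind, h1, if_false]

/-- The events which depend on `B`, on the event that the cluster of `B` stays in `V`, are less
likely in the larger domain. -/
theorem stay_le (hW : W.Finite) (hVW : V ⊆ W) {A : Set Hg}
    (hA : ∀ h g : Hg, (∀ x ∈ B, h x = g x) → h ∈ A → g ∈ A) :
    Pr (Cfg W (frd W 0)) (A ∩ {h | CluL 0 B h ⊆ V}) ≤ Pr (Cfg V (frd V 0)) A := by
  have hV : V.Finite := hW.subset hVW
  calc Pr (Cfg W (frd W 0)) (A ∩ {h | CluL 0 B h ⊆ V})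
      = ∑ k ∈ hV.toFinset.powerset,
          Pr (Cfg W (frd W 0)) (A ∩ {h | CluL 0 B h = (k : Set Pt)}) :=
        sum_clu hV _ (Cfg_finite (frd_dat hW)) A
    _ ≤ ∑ k ∈ hV.toFinset.powerset,
          Pr (Cfg V (frd V 0)) (A ∩ {h | CluL 0 B h = (k : Set Pt)}) :=
        Finset.sum_le_sum fun k hk => one_le hW hVW (fun x hx => by
          have := Finset.mem_powerset.1 hk (Finset.mem_coe.1 hx)
          rwa [Set.Finite.mem_toFinset] at this) hA
    _ = Pr (Cfg V (frd V 0)) (A ∩ {h | CluL 0 B h ⊆ V}) :=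
        (sum_clu hV _ (Cfg_finite (frd_dat hV)) A).symm
    _ ≤ Pr (Cfg V (frd V 0)) A := Pr_mono fun h _ h1 => h1.1

/-- The probability that the open cluster of `B` leaves `V`. -/
noncomputable def esc (W V B : Set Pt) : ℝ :=
  Pr (Cfg W (frd W 0)) {h | ∃ y ∈ CluL 0 B h, y ∉ V}

theorem tv_le (hW : W.Finite) (hVW : V ⊆ W) {A : Set Hg}
    (hA : ∀ h g : Hg, (∀ x ∈ B, h x = g x) → h ∈ A → g ∈ A) :
    Pr (Cfg W (frd W 0)) A - esc W V B ≤ Pr (Cfg V (frd V 0)) A := by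
  have h1 := stay_le hW hVW hA
  have h2 : Pr (Cfg W (frd W 0)) A ≤
      Pr (Cfg W (frd W 0)) (A ∩ {h | CluL 0 B h ⊆ V}) + esc W V B := by
    refine le_trans (Pr_mono fun h _ hA => ?_) (Pr_union_le _ _ _)
    by_cases h3 : CluL 0 B h ⊆ V
    · exact Or.inl ⟨hA, h3⟩
    · right
      obtain ⟨y, hy, hyV⟩ := Set.not_subset.1 h3
      exact ⟨y, hy, hyV⟩
  linarith

/-- **Closeness of the free laws.** -/
theorem tv (hW : W.Finite) (hVW : V ⊆ W) {A : Set Hg}
    (hA : ∀ h g : Hg, (∀ x ∈ B, h x = g x) → (h ∈ A ↔ g ∈ A)) :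
    |Pr (Cfg V (frd V 0)) A - Pr (Cfg W (frd W 0)) A| ≤ esc W V B := by
  have hV : V.Finite := hW.subset hVW
  have h1 := tv_le (A := A) hW hVW (fun h g hhg => (hA h g hhg).1)
  have h2 := tv_le (A := Aᶜ) hW hVW (fun h g hhg => (not_congr (hA h g hhg)).1)
  have h3 := Pr_add_compl (Cfg_finite (frd_dat hV)) (frd_nonempty V) A
  have h4 := Pr_add_compl (Cfg_finite (frd_dat hW)) (frd_nonempty W) A
  rw [abs_le]
  constructor <;> linarith

/-- The escape probability increases with the domain and decreases with the target. -/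
theorem esc_mono' {W' V' B' : Set Pt} (hW' : W'.Finite) (hWW' : W ⊆ W') (hVV' : V' ⊆ V)
    (hBB' : B ⊆ B') : esc W V B ≤ esc W' V' B' := by
  have hA : IsUpperSet {a : Hg | ∃ y ∈ CluM B a, y ∈ Vᶜ} := fun a b hab ⟨y, hy, hyM⟩ =>
    ⟨y, CluM_mono B hab hy, hyM⟩
  have key := mono_dom hW' hWW' hA
  have e1 : ∀ W : Set Pt, Pr (Cfg W (frd W 0)) {g | md 0 g ∈ {a : Hg | ∃ y ∈ CluM B a, y ∈ Vᶜ}} =
      Pr (Cfg W (frd W 0)) {h | ∃ y ∈ CluL 0 B h, y ∈ Vᶜ} := fun W => by
    refine Pr_congr fun g hg => ?_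
    simp only [Set.mem_ofPred_eq, CluM_md Even.zero B hg.1]
  rw [e1, e1] at key
  refine le_trans (key : esc W V B ≤ _) (Pr_mono fun h _ => ?_)
  rintro ⟨y, ⟨x, hx, hxy⟩, hyV⟩
  exact ⟨y, ⟨x, hBB' hx, hxy⟩, fun h2 => hyV (hVV' h2)⟩

/-- The sandwich: all the free laws of the domains between `V₁` and `W` are close on `B`. -/
theorem tv_sand {V₁ V' : Set Pt} (hW : W.Finite) (h1 : V₁ ⊆ V) (h1' : V₁ ⊆ V') (h2 : V ⊆ W)
    (h2' : V' ⊆ W) {A : Set Hg} (hA : ∀ h g : Hg, (∀ x ∈ B, h x = g x) → (h ∈ A ↔ g ∈ A)) :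
    |Pr (Cfg V (frd V 0)) A - Pr (Cfg V' (frd V' 0)) A| ≤ 2 * esc W V₁ B := by
  have a1 := tv (A := A) hW h2 hA
  have a2 := tv (A := A) hW h2' hA
  have e1 : esc W V B ≤ esc W V₁ B := esc_mono' hW subset_rfl h1 subset_rfl
  have e2 : esc W V' B ≤ esc W V₁ B := esc_mono' hW subset_rfl h1' subset_rfl
  rw [abs_le] at a1 a2 ⊢
  constructor <;> linarith [a1.1, a1.2, a2.1, a2.2]

end Vale.Agent.P153.R2.KPOS.TV
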